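import Vale.Agent.P259.Exists.Theta

/-!
# P259: lifts of any set of admissible pairs can be adjoined universally
-/

noncomputable section

open CategoryTheory

namespace Vale.Agent.P259.Exists

variable (C : GlobExt) (P : Set (Admissible C))

/-- Formal expressions. -/
inductive Tm : GlobSum → GlobSum → Type
  | of {A B : GlobSum} (f : C.Hom A B) : Tm A B
  | lift (p : P) : Tm (disc (p.1.n + 1)) p.1.S
  | comp {A B D : GlobSum} (a : Tm A B) (b : Tm B D) : Tm A D
  | desc {A B : GlobSum} (x : ∀ l, Tm (disc (A.i l)) B) : Tm A B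

variable {C P}

/-- Equality of formal expressions; an expression is well formed when it equals itself. -/
inductive Rel : ∀ {A B : GlobSum}, Tm C P A B → Tm C P A B → Prop
  | refl_of {A B : GlobSum} (f : C.Hom A B) : Rel (.of f) (.of f)
  | refl_lift (p : P) : Rel (.lift p) (.lift p)
  | comp {A B D : GlobSum} {a a' : Tm C P A B} {b b' : Tm C P B D} :
      Rel a a' → Rel b b' → Rel (.comp a b) (.comp a' b')
  | desc {A B : GlobSum} {x x' : ∀ l, Tm C P (disc (A.i l)) B} :
      (∀ l, Rel (x l) (x' l)) →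
      (∀ l : Fin A.len, Rel (.comp (.of (C.ι (glueTgt A l))) (x l.castSucc))
        (.comp (.of (C.ι (glueSrc A l))) (x l.succ))) →
      (∀ l : Fin A.len, Rel (.comp (.of (C.ι (glueTgt A l))) (x' l.castSucc))
        (.comp (.of (C.ι (glueSrc A l))) (x' l.succ))) →
      Rel (.desc x) (.desc x')
  | symm {A B : GlobSum} {a b : Tm C P A B} : Rel a b → Rel b a
  | trans {A B : GlobSum} {a b c : Tm C P A B} : Rel a b → Rel b c → Rel a c
  | of_comp {A B D : GlobSum} (f : C.Hom A B) (g : C.Hom B D) :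
      Rel (.comp (.of f) (.of g)) (.of (C.comp f g))
  | id_comp {A B : GlobSum} {a : Tm C P A B} : Rel a a → Rel (.comp (.of (C.id A)) a) a
  | comp_id {A B : GlobSum} {a : Tm C P A B} : Rel a a → Rel (.comp a (.of (C.id B))) a
  | assoc {A B D E : GlobSum} {a : Tm C P A B} {b : Tm C P B D} {c : Tm C P D E} :
      Rel a a → Rel b b → Rel c c → Rel (.comp (.comp a b) c) (.comp a (.comp b c))
  | src (p : P) : Rel (.comp (.of (C.ι (P259.src p.1.n))) (.lift p)) (.of p.1.f)
  | tgt (p : P) : Rel (.comp (.of (C.ι (P259.tgt p.1.n))) (.lift p)) (.of p.1.g)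
  | incl_desc {A B : GlobSum} {x : ∀ l, Tm C P (disc (A.i l)) B} :
      (∀ l, Rel (x l) (x l)) →
      (∀ l : Fin A.len, Rel (.comp (.of (C.ι (glueTgt A l))) (x l.castSucc))
        (.comp (.of (C.ι (glueSrc A l))) (x l.succ))) →
      ∀ l, Rel (.comp (.of (C.ι (incl A l))) (.desc x)) (x l)
  | ext {A B : GlobSum} {a b : Tm C P A B} : Rel a a → Rel b b →
      (∀ l, Rel (.comp (.of (C.ι (incl A l))) a) (.comp (.of (C.ι (incl A l))) b)) → Rel a b

/-- Hereditary well-formedness. -/
def Hered : ∀ {A B : GlobSum}, Tm C P A B → Prop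
  | _, _, .of _ => True
  | _, _, .lift _ => True
  | _, _, .comp a b => Hered a ∧ Hered b
  | _, _, .desc (A := A) x => (∀ l, Hered (x l)) ∧
      ∀ l : Fin A.len, Rel (.comp (.of (C.ι (glueTgt A l))) (x l.castSucc))
        (.comp (.of (C.ι (glueSrc A l))) (x l.succ))

theorem hered_of_rel {A B : GlobSum} {a b : Tm C P A B} (h : Rel a b) : Hered a ∧ Hered b := by
  induction h with
  | refl_of f => exact ⟨trivial, trivial⟩
  | refl_lift p => exact ⟨trivial, trivial⟩
  | comp _ _ iha ihb => exact ⟨⟨iha.1, ihb.1⟩, iha.2, ihb.2⟩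
  | desc _ hx hx' ih _ _ => exact ⟨⟨fun l => (ih l).1, hx⟩, fun l => (ih l).2, hx'⟩
  | symm _ ih => exact ih.symm
  | trans _ _ ih ih' => exact ⟨ih.1, ih'.2⟩
  | of_comp f g => exact ⟨⟨trivial, trivial⟩, trivial⟩
  | id_comp _ ih => exact ⟨⟨trivial, ih.1⟩, ih.1⟩
  | comp_id _ ih => exact ⟨⟨ih.1, trivial⟩, ih.1⟩
  | assoc _ _ _ i j k => exact ⟨⟨⟨i.1, j.1⟩, k.1⟩, i.1, j.1, k.1⟩
  | src p => exact ⟨⟨trivial, trivial⟩, trivial⟩
  | tgt p => exact ⟨⟨trivial, trivial⟩, trivial⟩
  | incl_desc _ hx l ih _ => exact ⟨⟨trivial, fun l => (ih l).1, hx⟩, (ih l).1⟩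
  | ext _ _ _ i j _ => exact ⟨i.1, j.1⟩

theorem rel_self_of_hered {A B : GlobSum} (a : Tm C P A B) : Hered a → Rel a a := by
  induction a with
  | of f => exact fun _ => .refl_of f
  | lift p => exact fun _ => .refl_lift p
  | comp a b iha ihb => exact fun h => .comp (iha h.1) (ihb h.2)
  | desc x ih => exact fun h => .desc (fun l => ih l (h.1 l)) h.2 h.2

variable (C P) in
/-- Well-formed expressions. -/
def WTm (A B : GlobSum) : Type := {a : Tm C P A B // Rel a a}

instance wtmSetoid (A B : GlobSum) : Setoid (WTm C P A B) where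
  r a b := Rel a.1 b.1
  iseqv := ⟨fun a => a.2, fun h => h.symm, fun h h' => h.trans h'⟩

variable (C P) in
/-- The morphisms of the extension. -/
def AHom (A B : GlobSum) : Type := Quotient (wtmSetoid (C := C) (P := P) A B)

/-- The class of an expression. -/
def cl {A B : GlobSum} (a : Tm C P A B) (h : Rel a a) : AHom C P A B := Quotient.mk _ ⟨a, h⟩

/-- Composition. -/
def acomp {A B D : GlobSum} : AHom C P A B → AHom C P B D → AHom C P A D :=
  Quotient.map₂ (fun a b => ⟨.comp a.1 b.1, .comp a.2 b.2⟩) fun _ _ h _ _ h' => Rel.comp h h'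

variable (C P) in
/-- The extension obtained by adjoining lifts of `P`. -/
def adjoin : GlobExt where
  Hom := AHom C P
  id A := cl (.of (C.id A)) (.refl_of _)
  comp := acomp
  id_comp := by rintro A B ⟨a⟩; exact Quotient.sound (Rel.id_comp a.2)
  comp_id := by rintro A B ⟨a⟩; exact Quotient.sound (Rel.comp_id a.2)
  assoc := by
    rintro A B D E ⟨a⟩ ⟨b⟩ ⟨c⟩
    exact Quotient.sound (Rel.assoc a.2 b.2 c.2)
  ι f := cl (.of (C.ι f)) (.refl_of _)
  ι_id A := by rw [C.ι_id]
  ι_comp f g := by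
    rw [C.ι_comp]
    exact Quotient.sound (Rel.of_comp _ _).symm
  preserves := by
    intro B A x hx
    let y : ∀ l, WTm C P (disc (A.i l)) B := fun l => (x l).out
    have hy : ∀ l, Quotient.mk _ (y l) = x l := fun l => Quotient.out_eq _
    have hxy : ∀ l : Fin A.len, Rel (.comp (.of (C.ι (glueTgt A l))) (y l.castSucc).1)
        (.comp (.of (C.ι (glueSrc A l))) (y l.succ).1) := fun l => by
      have h := hx l
      dsimp only at h
      rw [← hy l.castSucc, ← hy l.succ] at h
      exact Quotient.exact h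
    refine ⟨cl (.desc fun l => (y l).1) (.desc (fun l => (y l).2) hxy hxy), fun l => ?_, ?_⟩
    · rw [← hy l]
      exact Quotient.sound (Rel.incl_desc (fun l => (y l).2) hxy l)
    · rintro ⟨a⟩ ha
      refine Quotient.sound (Rel.ext a.2 (.desc (fun l => (y l).2) hxy hxy) fun l => ?_)
      have h := ha l
      rw [← hy l] at h
      exact (Quotient.exact h).trans (Rel.incl_desc (fun l => (y l).2) hxy l).symm

variable (C P) in
/-- The functor into the extension. -/
def adjoinMap : GlobExt.Map C (adjoin C P) where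
  map f := cl (.of f) (.refl_of _)
  map_id _ := rfl
  map_comp f g := Quotient.sound (Rel.of_comp f g).symm
  map_ι _ := rfl

variable (C P) in
/-- The adjoined lifts. -/
def adjoinLift (p : P) :
    Lift (adjoin C P) ((adjoinMap C P).map p.1.f) ((adjoinMap C P).map p.1.g) :=
  ⟨cl (.lift p) (.refl_lift p), Quotient.sound (Rel.src p), Quotient.sound (Rel.tgt p)⟩

variable {E : GlobExt} (F : GlobExt.Map C E)
  (L : ∀ p : P, Lift E (F.map p.1.f) (F.map p.1.g))

/-- The value of an expression in a target extension, as a relation. -/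
def Ev : ∀ {A B : GlobSum}, Tm C P A B → E.Hom A B → Prop
  | _, _, .of f, v => v = F.map f
  | _, _, .lift p, v => v = (L p).1
  | _, _, .comp a b, v => ∃ u w, Ev a u ∧ Ev b w ∧ v = E.comp u w
  | _, _, .desc (A := A) x, v => ∀ l, Ev (x l) (E.comp (E.ι (incl A l)) v)

theorem ev_unique {A B : GlobSum} (a : Tm C P A B) :
    ∀ {v v' : E.Hom A B}, Ev F L a v → Ev F L a v' → v = v' := by
  induction a with
  | of f => exact fun h h' => h.trans h'.symm
  | lift p => exact fun h h' => h.trans h'.symm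
  | comp a b iha ihb =>
    rintro v v' ⟨u, w, hu, hw, rfl⟩ ⟨u', w', hu', hw', rfl⟩
    rw [iha hu hu', ihb hw hw']
  | desc x ih => exact fun h h' => ext_incl fun l => ih l (h l) (h' l)

theorem ev_exists {A B : GlobSum} {a b : Tm C P A B} (h : Rel a b) :
    ∃ v, Ev F L a v ∧ Ev F L b v := by
  induction h with
  | refl_of f => exact ⟨_, rfl, rfl⟩
  | refl_lift p => exact ⟨_, rfl, rfl⟩
  | comp _ _ iha ihb =>
    obtain ⟨u, hu, hu'⟩ := iha
    obtain ⟨w, hw, hw'⟩ := ihb
    exact ⟨_, ⟨u, w, hu, hw, rfl⟩, u, w, hu', hw', rfl⟩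
  | @desc A B x x' _ _ _ ih ihx _ =>
    choose v hv hv' using ih
    have hc : ∀ l : Fin A.len, E.comp (E.ι (glueTgt A l)) (v l.castSucc) =
        E.comp (E.ι (glueSrc A l)) (v l.succ) := by
      intro l
      obtain ⟨z, ⟨u, w, hu, hw, rfl⟩, u', w', hu', hw', hz⟩ := ihx l
      rw [show u = _ from hu, show u' = _ from hu', F.map_ι, F.map_ι,
        ev_unique F L _ hw (hv _), ev_unique F L _ hw' (hv _)] at hz
      exact hz
    exact ⟨desc v hc, fun l => by rw [incl_desc]; exact hv l,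
      fun l => by rw [incl_desc]; exact hv' l⟩
  | symm _ ih => exact ⟨ih.choose, ih.choose_spec.2, ih.choose_spec.1⟩
  | trans _ _ ih ih' =>
    obtain ⟨v, hv, hv'⟩ := ih
    obtain ⟨w, hw, hw'⟩ := ih'
    exact ⟨v, hv, ev_unique F L _ hv' hw ▸ hw'⟩
  | of_comp f g => exact ⟨_, ⟨_, _, rfl, rfl, rfl⟩, (F.map_comp f g).symm⟩
  | id_comp _ ih =>
    obtain ⟨v, hv, -⟩ := ih
    exact ⟨v, ⟨_, v, rfl, hv, by rw [F.map_id, E.id_comp]⟩, hv⟩
  | comp_id _ ih =>
    obtain ⟨v, hv, -⟩ := ih
    exact ⟨v, ⟨v, _, hv, rfl, by rw [F.map_id, E.comp_id]⟩, hv⟩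
  | assoc _ _ _ i j k =>
    obtain ⟨u, hu, -⟩ := i
    obtain ⟨v, hv, -⟩ := j
    obtain ⟨w, hw, -⟩ := k
    exact ⟨_, ⟨_, w, ⟨u, v, hu, hv, rfl⟩, hw, rfl⟩,
      u, _, hu, ⟨v, w, hv, hw, rfl⟩, E.assoc u v w⟩
  | src p => exact ⟨_, ⟨_, _, rfl, rfl, by rw [F.map_ι, (L p).2.1]⟩, rfl⟩
  | tgt p => exact ⟨_, ⟨_, _, rfl, rfl, by rw [F.map_ι, (L p).2.2]⟩, rfl⟩
  | @incl_desc A B x _ _ l ih ihx =>
    choose v hv hv' using ih
    have hc : ∀ l : Fin A.len, E.comp (E.ι (glueTgt A l)) (v l.castSucc) =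
        E.comp (E.ι (glueSrc A l)) (v l.succ) := by
      intro l
      obtain ⟨z, ⟨u, w, hu, hw, rfl⟩, u', w', hu', hw', hz⟩ := ihx l
      rw [show u = _ from hu, show u' = _ from hu', F.map_ι, F.map_ι,
        ev_unique F L _ hw (hv _), ev_unique F L _ hw' (hv _)] at hz
      exact hz
    refine ⟨v l, ⟨_, desc v hc, rfl, fun l => ?_, ?_⟩, hv l⟩
    · rw [incl_desc]; exact hv l
    · rw [F.map_ι, incl_desc]
  | ext _ _ _ i j k =>
    obtain ⟨v, hv, -⟩ := i
    obtain ⟨w, hw, -⟩ := j
    refine ⟨v, hv, ?_⟩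
    have : v = w := ext_incl fun l => by
      obtain ⟨z, ⟨u, v', hu, hv', rfl⟩, u', w', hu', hw', hz⟩ := k l
      rw [show u = _ from hu, show u' = _ from hu', F.map_ι, ev_unique F L _ hv' hv,
        ev_unique F L _ hw' hw] at hz
      exact hz
    exact this ▸ hw

/-- The value of a class. -/
def value {A B : GlobSum} : AHom C P A B → E.Hom A B :=
  Quotient.lift (fun a => (ev_exists F L a.2).choose) fun a b h => by
    obtain ⟨v, hv, hv'⟩ := ev_exists F L h
    exact (ev_unique F L _ (ev_exists F L a.2).choose_spec.1 hv).trans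
      (ev_unique F L _ hv' (ev_exists F L b.2).choose_spec.1)

theorem value_eq {A B : GlobSum} (a : WTm C P A B) {v : E.Hom A B} (h : Ev F L a.1 v) :
    value F L (Quotient.mk _ a) = v :=
  ev_unique F L _ (ev_exists F L a.2).choose_spec.1 h

theorem ev_value {A B : GlobSum} (a : WTm C P A B) : Ev F L a.1 (value F L (Quotient.mk _ a)) :=
  (ev_exists F L a.2).choose_spec.1

/-- The universal property. -/
theorem adjoins : AdjoinsLifts (adjoinMap C P) P (adjoinLift C P) := by
  intro E F L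
  let G : GlobExt.Map (adjoin C P) E :=
    { map := fun a => value F L a
      map_id := fun A => value_eq F L ⟨.of (C.id A), .refl_of _⟩ (F.map_id A).symm
      map_comp := by
        rintro A B D ⟨a⟩ ⟨b⟩
        exact value_eq F L _ ⟨_, _, ev_value F L a, ev_value F L b, rfl⟩
      map_ι := fun f => value_eq F L ⟨.of (C.ι f), .refl_of _⟩ (F.map_ι f).symm }
  refine ⟨G, ⟨fun A B f => value_eq F L ⟨.of f, .refl_of _⟩ rfl,
    fun p => value_eq F L ⟨.lift p, .refl_lift p⟩ rfl⟩, ?_⟩
  rintro H ⟨hH, hL⟩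
  have key : ∀ {A B : GlobSum} (a : Tm C P A B) (h : Rel a a), Ev F L a (H.map (cl a h)) := by
    intro A B a
    induction a with
    | of f => exact fun _ => hH _ _ f
    | lift p => exact fun _ => hL p
    | comp a b iha ihb =>
      intro h
      have g := (hered_of_rel h).1
      exact ⟨_, _, iha (rel_self_of_hered a g.1), ihb (rel_self_of_hered b g.2),
        H.map_comp (cl a (rel_self_of_hered a g.1)) (cl b (rel_self_of_hered b g.2))⟩
    | @desc A B x ih =>
      intro h l
      have g := (hered_of_rel h).1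
      have e : cl (.comp (.of (C.ι (incl A l))) (.desc x)) (.comp (.refl_of _) h) =
          cl (x l) (rel_self_of_hered _ (g.1 l)) :=
        Quotient.sound (Rel.incl_desc (fun l => rel_self_of_hered _ (g.1 l)) g.2 l)
      have e' := H.map_comp (cl (.of (C.ι (incl A l))) (.refl_of _)) (cl (.desc x) h)
      rw [show H.map (cl (.of (C.ι (incl A l))) (.refl_of _)) = E.ι (incl A l) from
        (hH _ _ _).trans (F.map_ι _)] at e'
      rw [← e']
      exact (congrArg H.map e).symm ▸ ih l (rel_self_of_hered _ (g.1 l))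
  apply GlobExt.Map.ext
  funext A B a
  induction a using Quotient.ind with
  | _ a => exact (value_eq F L a (key a.1 a.2)).symm

end Vale.Agent.P259.Exists
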