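import Vale.Agent.P259.Exists.Adjoin

/-!
# P259: a sequential colimit of globular extensions
-/

noncomputable section

open CategoryTheory

namespace Vale.Agent.P259.Exists

variable (St : ℕ → GlobExt) (nx : ∀ k, GlobExt.Map (St k) (St (k + 1)))

/-- Transition. -/
def trn {k m : ℕ} (h : k ≤ m) {A B : GlobSum} (f : (St k).Hom A B) : (St m).Hom A B :=
  Nat.leRecOn (C := fun i => (St i).Hom A B) h (fun {i} x => (nx i).map x) f

theorem trn_self {k : ℕ} (h : k ≤ k) {A B : GlobSum} (f : (St k).Hom A B) : trn St nx h f = f :=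
  Nat.leRecOn_self _

theorem trn_succ {k m : ℕ} (h : k ≤ m) (h' : k ≤ m + 1) {A B : GlobSum} (f : (St k).Hom A B) :
    trn St nx h' f = (nx m).map (trn St nx h f) :=
  Nat.leRecOn_succ h _

theorem trn_trn {k m n : ℕ} (h : k ≤ m) (h' : m ≤ n) {A B : GlobSum} (f : (St k).Hom A B) :
    trn St nx h' (trn St nx h f) = trn St nx (h.trans h') f :=
  (Nat.leRecOn_trans (C := fun i => (St i).Hom A B) h h' f).symm

theorem trn_map {k m : ℕ} (h : k ≤ m) :
    (∀ A, trn St nx h ((St k).id A) = (St m).id A) ∧
    (∀ A B D (f : (St k).Hom A B) (g : (St k).Hom B D),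
      trn St nx h ((St k).comp f g) = (St m).comp (trn St nx h f) (trn St nx h g)) ∧
    ∀ A B (f : A ⟶ B), trn St nx h ((St k).ι f) = (St m).ι f := by
  induction m, h using Nat.le_induction with
  | base => simp [trn_self]
  | succ m h ih =>
    simp only [trn_succ St nx h]
    refine ⟨fun A => by rw [ih.1, (nx m).map_id], fun A B D f g => ?_,
      fun A B f => by rw [ih.2.2, (nx m).map_ι]⟩
    rw [ih.2.1, (nx m).map_comp]

/-- Stagewise representatives. -/
def Pre (A B : GlobSum) : Type := Σ k, (St k).Hom A B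

/-- Eventual equality. -/
def colimSetoid (A B : GlobSum) : Setoid (Pre St A B) where
  r a b := ∃ m, ∃ (h : a.1 ≤ m) (h' : b.1 ≤ m), trn St nx h a.2 = trn St nx h' b.2
  iseqv := by
    refine ⟨fun a => ⟨a.1, le_rfl, le_rfl, rfl⟩, fun ⟨m, h, h', e⟩ => ⟨m, h', h, e.symm⟩, ?_⟩
    rintro a b c ⟨m, h, h', e⟩ ⟨m', k, k', e'⟩
    refine ⟨max m m', h.trans (le_max_left _ _), k'.trans (le_max_right _ _), ?_⟩
    rw [← trn_trn St nx h (le_max_left m m'), e, trn_trn, ← trn_trn St nx k' (le_max_right m m'), ← e',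
      trn_trn]

/-- The class of a map at a stage. -/
def inj {k : ℕ} {A B : GlobSum} (f : (St k).Hom A B) : Quotient (colimSetoid St nx A B) :=
  Quotient.mk _ ⟨k, f⟩

theorem inj_trn {k m : ℕ} (h : k ≤ m) {A B : GlobSum} (f : (St k).Hom A B) :
    inj St nx (trn St nx h f) = inj St nx f :=
  Quotient.sound ⟨m, le_rfl, h, trn_self St nx _ _⟩

theorem inj_eq {k : ℕ} {A B : GlobSum} {f g : (St k).Hom A B} (h : inj St nx f = inj St nx g) :
    ∃ m, ∃ h : k ≤ m, trn St nx h f = trn St nx h g :=
  let ⟨m, h, _, e⟩ := Quotient.exact h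
  ⟨m, h, e⟩

theorem inj_surj {A B : GlobSum} (a : Quotient (colimSetoid St nx A B)) :
    ∃ k, ∀ m, k ≤ m → ∃ f : (St m).Hom A B, inj St nx f = a := by
  induction a using Quotient.ind with
  | _ a => exact ⟨a.1, fun m h => ⟨trn St nx h a.2, inj_trn St nx h a.2⟩⟩

/-- Composition of classes. -/
def ccomp {A B D : GlobSum} : Quotient (colimSetoid St nx A B) →
    Quotient (colimSetoid St nx B D) → Quotient (colimSetoid St nx A D) :=
  Quotient.lift₂ (fun a b => inj St nx ((St (max a.1 b.1)).comp
    (trn St nx (le_max_left _ _) a.2) (trn St nx (le_max_right _ _) b.2))) <| by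
    rintro a b a' b' ⟨m, h, h', e⟩ ⟨n, k, k', e'⟩
    refine Quotient.sound ⟨max m n, max_le_max h k, max_le_max h' k', ?_⟩
    rw [(trn_map St nx _).2.1, (trn_map St nx _).2.1, trn_trn, trn_trn, trn_trn, trn_trn,
      ← trn_trn St nx h (le_max_left m n), e, trn_trn,
      ← trn_trn St nx k (le_max_right m n), e', trn_trn]

theorem inj_comp {k : ℕ} {A B D : GlobSum} (f : (St k).Hom A B) (g : (St k).Hom B D) :
    ccomp St nx (inj St nx f) (inj St nx g) = inj St nx ((St k).comp f g) := by
  refine Quotient.sound ⟨max k k, le_rfl, le_max_left _ _, ?_⟩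
  rw [trn_self, (trn_map St nx _).2.1]

/-- The colimit. -/
def colim : GlobExt where
  Hom A B := Quotient (colimSetoid St nx A B)
  id A := inj St nx ((St 0).id A)
  comp := ccomp St nx
  id_comp := by
    intro A B a
    obtain ⟨k, hk⟩ := inj_surj St nx a
    obtain ⟨f, rfl⟩ := hk k le_rfl
    rw [← inj_trn St nx (Nat.zero_le k), (trn_map St nx _).1, inj_comp, (St k).id_comp]
  comp_id := by
    intro A B a
    obtain ⟨k, hk⟩ := inj_surj St nx a
    obtain ⟨f, rfl⟩ := hk k le_rfl
    rw [← inj_trn St nx (Nat.zero_le k), (trn_map St nx _).1, inj_comp, (St k).comp_id]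
  assoc := by
    intro A B D E a b c
    obtain ⟨k, hk⟩ := inj_surj St nx a
    obtain ⟨l, hl⟩ := inj_surj St nx b
    obtain ⟨m, hm⟩ := inj_surj St nx c
    obtain ⟨f, rfl⟩ := hk (max k (max l m)) (le_max_left _ _)
    obtain ⟨g, rfl⟩ := hl (max k (max l m)) (by omega)
    obtain ⟨h, rfl⟩ := hm (max k (max l m)) (by omega)
    simp only [inj_comp, GlobExt.assoc]
  ι f := inj St nx ((St 0).ι f)
  ι_id A := by rw [(St 0).ι_id]
  ι_comp f g := by rw [(St 0).ι_comp, inj_comp]
  preserves := by
    intro B A x hx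
    choose k hk using fun l => inj_surj St nx (x l)
    choose y hy using fun l => hk l (Finset.univ.sup k) (Finset.le_sup (Finset.mem_univ l))
    generalize Finset.univ.sup k = K at y hy
    have hι : ∀ {A' B' : GlobSum} (f : A' ⟶ B') (m : ℕ),
        inj St nx ((St 0).ι f) = inj St nx ((St m).ι f) := fun f m => by
      rw [← inj_trn St nx (Nat.zero_le m), (trn_map St nx _).2.2]
    have hc : ∀ l : Fin A.len, ∃ m, ∃ h : K ≤ m,
        trn St nx h ((St K).comp ((St K).ι (glueTgt A l)) (y l.castSucc)) =
          trn St nx h ((St K).comp ((St K).ι (glueSrc A l)) (y l.succ)) := by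
      intro l
      refine inj_eq St nx ?_
      rw [← inj_comp, ← inj_comp, ← hι (glueTgt A l), ← hι (glueSrc A l), hy, hy]
      exact hx l
    choose m hm e using hc
    have hM : ∀ l, m l ≤ max K (Finset.univ.sup m) := fun l =>
      (Finset.le_sup (Finset.mem_univ l)).trans (le_max_right _ _)
    have hK : K ≤ max K (Finset.univ.sup m) := le_max_left _ _
    generalize max K (Finset.univ.sup m) = M at hM hK
    obtain ⟨a, ha, -⟩ := (St M).preserves B A (fun l => trn St nx hK (y l)) fun l => by
      have := congrArg (trn St nx (hM l)) (e l)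
      simp only [(trn_map St nx _).2.1, (trn_map St nx _).2.2, trn_trn] at this
      exact this
    have ha' : ∀ l, (St M).comp ((St M).ι (incl A l)) a = trn St nx hK (y l) := ha
    refine ⟨inj St nx a, fun l => ?_, fun b hb => ?_⟩
    · change ccomp St nx _ _ = _
      rw [hι _ M, inj_comp, ha' l, inj_trn, hy]
    · obtain ⟨k', hk'⟩ := inj_surj St nx b
      obtain ⟨b', rfl⟩ := hk' (max k' M) (le_max_left _ _)
      rw [← inj_trn St nx (le_max_right k' M) a]
      have hc : ∀ l, ∃ n, ∃ h : max k' M ≤ n,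
          trn St nx h ((St _).comp ((St _).ι (incl A l)) b') =
            trn St nx h ((St _).comp ((St _).ι (incl A l)) (trn St nx (le_max_right k' M) a)) := by
        intro l
        refine inj_eq St nx ?_
        rw [← inj_comp, ← inj_comp, ← hι (incl A l), inj_trn]
        exact (hb l).trans (by rw [hι _ M, inj_comp, ha' l, inj_trn, hy])
      choose n hn e' using hc
      have hP : ∀ l, n l ≤ max (max k' M) (Finset.univ.sup n) := fun l =>
        (Finset.le_sup (Finset.mem_univ l)).trans (le_max_right _ _)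
      have hQ : max k' M ≤ max (max k' M) (Finset.univ.sup n) := le_max_left _ _
      generalize max (max k' M) (Finset.univ.sup n) = R at hP hQ
      rw [← inj_trn St nx hQ b', ← inj_trn St nx hQ]
      refine congrArg _ (ext_incl fun l => ?_)
      have := congrArg (trn St nx (hP l)) (e' l)
      simp only [(trn_map St nx _).2.1, (trn_map St nx _).2.2, trn_trn] at this
      simpa only [trn_trn] using this

/-- The cocone. -/
def colimMap (k : ℕ) : GlobExt.Map (St k) (colim St nx) where
  map f := inj St nx f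
  map_id A := by
    change _ = inj St nx _
    rw [← inj_trn St nx (Nat.zero_le k) ((St 0).id A), (trn_map St nx _).1]
  map_comp f g := (inj_comp St nx f g).symm
  map_ι f := by
    change _ = inj St nx _
    rw [← inj_trn St nx (Nat.zero_le k) ((St 0).ι f), (trn_map St nx _).2.2]

end Vale.Agent.P259.Exists
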