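import Vale.Agent.P259.Exists.Theta

/-!
# P259: in the colimit of a tower every map out of a disc is generated by the lifts
-/

noncomputable section

open CategoryTheory

namespace Vale.Agent.P259.Exists

/-- `bd` composites through `σ`. -/
theorem bd_factor {a b : ℕ} (h : a < b) (h' : a < b + 1) (β : Bool) :
    discMap (.bd h β) ≫ src b = discMap (.bd h' β) :=
  discMap_discMap _ _

/-- Every map of `Θ₀` from a disc to a disc is the identity, or factors through `σ` or `τ`. -/
theorem disc_hom_cases {a n : ℕ} {P : (disc a ⟶ disc (n + 1)) → Prop}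
    (hid : ∀ h : a = n + 1, P (eqToHom (congrArg disc h)))
    (hsrc : ∀ g : disc a ⟶ disc n, P (g ≫ src n))
    (htgt : ∀ g : disc a ⟶ disc n, P (g ≫ tgt n)) (c : disc a ⟶ disc (n + 1)) : P c := by
  rw [← ofCell_cellOf c]
  induction cellOf c using disc_cell_ind with
  | h g =>
    change P (discMap g)
    cases g with
    | id => rw [discMap_id]; exact hid rfl
    | bd h β =>
      rcases Nat.lt_succ_iff_lt_or_eq.1 h with h' | rfl
      · rw [← bd_factor h' h β]; exact hsrc _
      · cases β
        · simpa [src] using hsrc (𝟙 _)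
        · simpa [tgt] using htgt (𝟙 _)

variable {C : GlobExt} (T : Tower C)

/-- The maps generated from the cells by composing lifts with maps having generated faces. -/
inductive Gen : ∀ {d : ℕ} {B : GlobSum}, C.Hom (disc d) B → Prop
  | cell {d : ℕ} {B : GlobSum} (c : disc d ⟶ B) : Gen (C.ι c)
  | lift (k : ℕ) (p : T.pairs k) {B : GlobSum} (h : C.Hom p.1.S B) :
      (∀ (a : ℕ) (c : disc a ⟶ p.1.S), Gen (C.comp (C.ι c) h)) →
      Gen (C.comp ((T.toColim (k + 1)).map (T.lift k p).1) h)

/-- All faces are generated. -/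
def Good {A B : GlobSum} (x : C.Hom A B) : Prop :=
  ∀ (a : ℕ) (c : disc a ⟶ A), Gen T (C.comp (C.ι c) x)

/-- Composition with the map preserves `Good`. -/
def Closed {A B : GlobSum} (x : C.Hom A B) : Prop :=
  ∀ (D : GlobSum) (h : C.Hom B D), Good T h → Good T (C.comp x h)

theorem closed_ι {A B : GlobSum} (f : A ⟶ B) : Closed T (C.ι f) := by
  intro D h hh a c
  rw [← C.assoc, ← C.ι_comp]
  exact hh a _

theorem closed_comp {A B D : GlobSum} {x : C.Hom A B} {y : C.Hom B D}
    (hx : Closed T x) (hy : Closed T y) : Closed T (C.comp x y) := by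
  intro E h hh
  rw [C.assoc]
  exact hx _ _ (hy _ _ hh)

/-- The closed maps of a stage form a globular extension. -/
def closedStage (k : ℕ) : GlobExt where
  Hom A B := {x : (T.stage k).Hom A B // Closed T ((T.toColim k).map x)}
  id A := ⟨(T.stage k).id A, by
    rw [(T.toColim k).map_id]
    intro D h hh
    rwa [C.id_comp]⟩
  comp x y := ⟨(T.stage k).comp x.1 y.1, by
    rw [(T.toColim k).map_comp]
    exact closed_comp T x.2 y.2⟩
  id_comp x := Subtype.ext ((T.stage k).id_comp x.1)
  comp_id x := Subtype.ext ((T.stage k).comp_id x.1)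
  assoc x y z := Subtype.ext ((T.stage k).assoc x.1 y.1 z.1)
  ι f := ⟨(T.stage k).ι f, by rw [(T.toColim k).map_ι]; exact closed_ι T f⟩
  ι_id A := Subtype.ext ((T.stage k).ι_id A)
  ι_comp f g := Subtype.ext ((T.stage k).ι_comp f g)
  preserves := by
    intro B A x hx
    obtain ⟨a, ha, hu⟩ := (T.stage k).preserves B A (fun l => (x l).1)
      fun l => congrArg Subtype.val (hx l)
    have ha' : ∀ l, (T.stage k).comp ((T.stage k).ι (incl A l)) a = (x l).1 := ha
    refine ⟨⟨a, fun D h hh m c => ?_⟩, fun l => Subtype.ext (ha l), fun b hb => Subtype.ext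
      (hu b.1 fun l => congrArg Subtype.val (hb l))⟩
    rw [← ofCell_cellOf c]
    induction cellOf c using cell_ind with
    | h l g =>
      have e : ofCell (cls A l g) = discMap g ≫ incl A l :=
        (congrArg ofCell (cls_eq_pull A l g)).trans
          (discMap_ofCell g (cls A l (GHom.id _))).symm
      rw [e, ← C.assoc, C.ι_comp, C.assoc (C.ι (discMap g)), ← (T.toColim k).map_ι (incl A l),
        ← (T.toColim k).map_comp, ha' l, C.assoc]
      exact (x l).2 D h hh m (discMap g)

/-- Inclusion of the closed maps. -/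
def closedIncl (k : ℕ) : GlobExt.Map (closedStage T k) (T.stage k) where
  map x := x.1
  map_id _ := rfl
  map_comp _ _ := rfl
  map_ι _ := rfl

theorem gen_eqToHom {a b : ℕ} {B : GlobSum} (h : a = b) {y : C.Hom (disc b) B} (hy : Gen T y) :
    Gen T (C.comp (C.ι (eqToHom (congrArg disc h))) y) := by
  subst h
  rwa [eqToHom_refl, C.ι_id, C.id_comp]

theorem closed_all : ∀ (k : ℕ) {A B : GlobSum} (x : (T.stage k).Hom A B),
    Closed T ((T.toColim k).map x) := by
  intro k
  induction k with
  | zero =>
    intro A B x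
    obtain ⟨f, rfl⟩ := (T.stage_zero A B).2 x
    rw [(T.toColim 0).map_ι]
    exact closed_ι T f
  | succ k ih =>
    intro A B x
    let F : GlobExt.Map (T.stage k) (closedStage T (k + 1)) :=
      { map := fun f => ⟨(T.next k).map f, by rw [T.toColim_next]; exact ih f⟩
        map_id := fun A => Subtype.ext ((T.next k).map_id A)
        map_comp := fun f g => Subtype.ext ((T.next k).map_comp f g)
        map_ι := fun f => Subtype.ext ((T.next k).map_ι f) }
    let L : ∀ p : T.pairs k, Lift (closedStage T (k + 1)) (F.map p.1.f) (F.map p.1.g) := fun p =>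
      ⟨⟨(T.lift k p).1, fun D h hh a c => by
        refine disc_hom_cases (P := fun c => Gen T (C.comp (C.ι c)
          (C.comp ((T.toColim (k + 1)).map (T.lift k p).1) h))) ?_ ?_ ?_ c
        · exact fun ha => gen_eqToHom T ha (Gen.lift k p h hh)
        · intro g
          rw [C.ι_comp, C.assoc, ← C.assoc (C.ι (src _)), ← (T.toColim (k + 1)).map_ι (src _),
            ← (T.toColim (k + 1)).map_comp, (T.lift k p).2.1, T.toColim_next]
          exact ih p.1.f D h hh a g
        · intro g
          rw [C.ι_comp, C.assoc, ← C.assoc (C.ι (tgt _)), ← (T.toColim (k + 1)).map_ι (tgt _),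
            ← (T.toColim (k + 1)).map_comp, (T.lift k p).2.2, T.toColim_next]
          exact ih p.1.g D h hh a g⟩,
        Subtype.ext (T.lift k p).2.1, Subtype.ext (T.lift k p).2.2⟩
    obtain ⟨G, ⟨hG, hGL⟩, -⟩ := T.universal k (closedStage T (k + 1)) F L
    obtain ⟨H, -, hu⟩ := T.universal k (T.stage (k + 1)) (T.next k) (T.lift k)
    let G' : GlobExt.Map (T.stage (k + 1)) (T.stage (k + 1)) :=
      { map := fun f => (G.map f).1
        map_id := fun A => congrArg Subtype.val (G.map_id A)
        map_comp := fun f g => congrArg Subtype.val (G.map_comp f g)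
        map_ι := fun f => congrArg Subtype.val (G.map_ι f) }
    let I : GlobExt.Map (T.stage (k + 1)) (T.stage (k + 1)) :=
      { map := fun f => f
        map_id := fun _ => rfl
        map_comp := fun _ _ => rfl
        map_ι := fun _ => rfl }
    have e : G' = I := (hu G' ⟨fun A B f => congrArg Subtype.val (hG A B f),
      fun p => congrArg Subtype.val (hGL p)⟩).trans
      (hu I ⟨fun _ _ _ => rfl, fun _ => rfl⟩).symm
    have h : (G.map x).1 = x := congrArg (fun M : GlobExt.Map _ _ => M.map x) e
    exact h ▸ (G.map x).2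

/-- Every map out of a disc is generated. -/
theorem gen_all {d : ℕ} {B : GlobSum} (y : C.Hom (disc d) B) : Gen T y := by
  obtain ⟨k, x, rfl⟩ := T.exists_stage _ _ y
  have h := closed_all T k x B (C.id B) (fun a c => by rw [C.comp_id]; exact .cell c) d
    (discMap (GHom.id d))
  rwa [discMap_id, C.ι_id, C.id_comp, C.comp_id] at h

end Vale.Agent.P259.Exists
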