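import Vale.Agent.P259.Exists.Generated

/-!
# P259: lifts of the admissible pairs give lifts of all parallel pairs
-/

noncomputable section

open CategoryTheory

namespace Vale.Agent.P259.Exists

set_option allowUnsafeReducibility true in
attribute [local reducible] GlobSum.cons disc GlobSum.i GlobExt.ob

/-! ## Tails of tables -/

/-- The inclusion of the tail. -/
theorem exists_tail (i j : ℕ) (A : GlobSum) (h₁ : j < i) (h₂ : j < A.head) :
    ∃ tl : A ⟶ GlobSum.cons i j A h₁ h₂,
      incl A (0 : Fin (A.len + 1)) ≫ tl =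
        incl (GlobSum.cons i j A h₁ h₂) (Fin.succ (0 : Fin (A.len + 1))) ∧
      ∀ k : Fin A.len, incl A k.succ ≫ tl = incl (GlobSum.cons i j A h₁ h₂) k.succ.succ := by
  obtain ⟨tl, h, -⟩ := theta_preserves (GlobSum.cons i j A h₁ h₂) A
    (Fin.cases (motive := fun l => disc (A.i l) ⟶ GlobSum.cons i j A h₁ h₂)
      (incl (GlobSum.cons i j A h₁ h₂) (Fin.succ (0 : Fin (A.len + 1))))
      fun k => incl (GlobSum.cons i j A h₁ h₂) k.succ.succ)
    (fun l => by
      have := glue_rel (GlobSum.cons i j A h₁ h₂) l.succ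
      obtain ⟨m, hm⟩ := l
      cases m <;> exact this)
  exact ⟨tl, h 0, fun k => h k.succ⟩

/-- The inclusion of the tail. -/
def tl (i j : ℕ) (A : GlobSum) (h₁ : j < i) (h₂ : j < A.head) :
    A ⟶ GlobSum.cons i j A h₁ h₂ := (exists_tail i j A h₁ h₂).choose

/-- The head component. -/
def hd (A : GlobSum) : disc A.head ⟶ A := incl A (0 : Fin (A.len + 1))

variable {i j : ℕ} {A : GlobSum} {h₁ : j < i} {h₂ : j < A.head}

theorem glue_hd :
    discMap (.bd h₁ true) ≫ hd (GlobSum.cons i j A h₁ h₂) =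
      discMap (.bd h₂ false) ≫ hd A ≫ tl i j A h₁ h₂ := by
  exact (glue_rel (GlobSum.cons i j A h₁ h₂) (0 : Fin (A.len + 1))).trans
    (congrArg (fun q => discMap (.bd h₂ false) ≫ q)
      (exists_tail i j A h₁ h₂).choose_spec.1.symm)

theorem cons_cases {d : ℕ} {P : (disc d ⟶ GlobSum.cons i j A h₁ h₂) → Prop}
    (h : ∀ g : GHom d i, P (discMap g ≫ hd (GlobSum.cons i j A h₁ h₂)))
    (h' : ∀ c : disc d ⟶ A, P (c ≫ tl i j A h₁ h₂))
    (c : disc d ⟶ GlobSum.cons i j A h₁ h₂) : P c := by
  rw [← ofCell_cellOf c]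
  induction cellOf c using cell_ind with
  | h l g =>
    have e : ofCell (cls _ l g) = discMap g ≫ incl (GlobSum.cons i j A h₁ h₂) l :=
      (congrArg ofCell (cls_eq_pull _ l g)).trans
        (discMap_ofCell g (cls _ l (GHom.id _))).symm
    rw [e]
    induction l using Fin.cases with
    | zero => exact h g
    | succ l =>
      obtain ⟨e₀, e₁⟩ := (exists_tail i j A h₁ h₂).choose_spec
      induction l using Fin.cases with
      | zero =>
        exact (congrArg P ((Category.assoc _ _ _).trans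
          (congrArg (fun q => discMap g ≫ q) e₀))).mp (h' (discMap g ≫ hd A))
      | succ k =>
        exact (congrArg P ((Category.assoc _ _ _).trans
          (congrArg (fun q => discMap g ≫ q) (e₁ k)))).mp (h' (discMap g ≫ incl A k.succ))

variable {C : GlobExt}

theorem cons_ext {B : GlobSum} {f f' : C.Hom (GlobSum.cons i j A h₁ h₂) B}
    (h : C.comp (C.ι (hd (GlobSum.cons i j A h₁ h₂))) f =
      C.comp (C.ι (hd (GlobSum.cons i j A h₁ h₂))) f')
    (h' : C.comp (C.ι (tl i j A h₁ h₂)) f = C.comp (C.ι (tl i j A h₁ h₂)) f') : f = f' := by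
  refine ext_incl fun l => ?_
  induction incl (GlobSum.cons i j A h₁ h₂) l using cons_cases with
  | h g => rw [C.ι_comp, C.assoc, C.assoc, h]
  | h' c => rw [C.ι_comp, C.assoc, C.assoc, h']

theorem exists_cons_desc {B : GlobSum} (x : C.Hom (disc i) B) (y : C.Hom A B)
    (h : C.comp (C.ι (discMap (.bd h₁ true))) x =
      C.comp (C.ι (discMap (.bd h₂ false) ≫ hd A)) y) :
    ∃ a : C.Hom (GlobSum.cons i j A h₁ h₂) B,
      C.comp (C.ι (hd (GlobSum.cons i j A h₁ h₂))) a = x ∧
        C.comp (C.ι (tl i j A h₁ h₂)) a = y := by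
  let z : ∀ l, C.Hom (disc ((GlobSum.cons i j A h₁ h₂).i l)) B :=
    Fin.cases x (Fin.cases (C.comp (C.ι (hd A)) y)
      fun k : Fin A.len => C.comp (C.ι (incl A k.succ)) y)
  obtain ⟨a, ha, -⟩ := C.preserves B (GlobSum.cons i j A h₁ h₂) z (fun l => by
    induction l using Fin.cases with
    | zero =>
      rw [C.ι_comp, C.assoc] at h
      exact h
    | succ l =>
      have := congrArg (fun f => C.comp (C.ι f) y) (glue_rel A l)
      simp only [C.ι_comp, C.assoc] at this
      obtain ⟨m, hm⟩ := l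
      cases m <;> exact this)
  refine ⟨a, ha 0, ext_incl fun l => ?_⟩
  obtain ⟨e₀, e₁⟩ := (exists_tail i j A h₁ h₂).choose_spec
  rw [← C.assoc, ← C.ι_comp, tl]
  induction l using Fin.cases with
  | zero => rw [e₀]; exact ha (Fin.succ (0 : Fin (A.len + 1)))
  | succ k => rw [e₁]; exact ha k.succ.succ

/-! ## Collapse and inclusion of discs -/

/-- The inclusion `D_a ⟶ D_b` by sources. -/
def up {a b : ℕ} (h : a ≤ b) : GHom a b :=
  if h' : a = b then h' ▸ GHom.id a else .bd (lt_of_le_of_ne h h') false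

theorem bd_comp_up {d a b : ℕ} (h : d < a) (β : Bool) (h' : a ≤ b) :
    (GHom.bd h β).comp (up h') = .bd (h.trans_le h') β := by
  rcases eq_or_lt_of_le h' with rfl | h''
  · simp [up, GHom.comp_id']
  · simp [up, h''.ne, GHom.comp]

/-- Iterated units `D_b ⟶ D_a`. -/
def kap (κ : IdLift C) {a b : ℕ} (h : a ≤ b) : C.Hom (disc b) (disc a) :=
  Nat.leRecOn (C := fun m => C.Hom (disc m) (disc a)) h
    (fun {m} x => C.comp (κ m).1 x) (C.id (disc a))

theorem kap_self (κ : IdLift C) {a : ℕ} (h : a ≤ a) : kap κ h = C.id (disc a) :=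
  Nat.leRecOn_self _

theorem kap_succ (κ : IdLift C) {a b : ℕ} (h : a ≤ b) (h' : a ≤ b + 1) :
    kap κ h' = C.comp (κ b).1 (kap κ h) :=
  Nat.leRecOn_succ h _

theorem bd_kap (κ : IdLift C) {a b : ℕ} (h : a ≤ b) :
    (∀ {d} (hd : d < b) (hda : d < a) (β : Bool),
      C.comp (C.ι (discMap (.bd hd β))) (kap κ h) = C.ι (discMap (.bd hda β))) ∧
    ∀ {d} (hd : d < b) (had : a ≤ d) (β : Bool),
      C.comp (C.ι (discMap (.bd hd β))) (kap κ h) = kap κ had := by
  induction b, h using Nat.le_induction with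
  | base => exact ⟨fun _ _ _ => by rw [kap_self, C.comp_id], fun hd had _ => by omega⟩
  | succ b h ih =>
    have top : ∀ β, C.comp (C.ι (discMap (.bd b.lt_succ_self β)))
        (kap κ (h.trans b.le_succ)) = kap κ h := fun β => by
      rw [kap_succ κ h, ← C.assoc]
      cases β
      · rw [show C.ι (discMap (.bd b.lt_succ_self false)) = C.ι (src b) from rfl, (κ b).2.1,
          C.id_comp]
      · rw [show C.ι (discMap (.bd b.lt_succ_self true)) = C.ι (tgt b) from rfl, (κ b).2.2,
          C.id_comp]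
    have low : ∀ {d} (hd : d < b + 1) (h' : d < b) (β : Bool),
        C.comp (C.ι (discMap (.bd hd β))) (kap κ (h.trans b.le_succ)) =
          C.comp (C.ι (discMap (.bd h' β))) (kap κ h) := fun hd h' β => by
      rw [← bd_factor h' hd β, C.ι_comp, C.assoc]
      exact congrArg _ (top false)
    refine ⟨fun {d} hd hda β => ?_, fun {d} hd had β => ?_⟩
    · rw [low hd (hda.trans_le h) β]; exact ih.1 _ hda β
    · rcases Nat.lt_succ_iff_lt_or_eq.1 hd with h' | rfl
      · rw [low hd h' β]; exact ih.2 h' had β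
      · exact top β

theorem up_kap (κ : IdLift C) {a b : ℕ} (h : a ≤ b) :
    C.comp (C.ι (discMap (up h))) (kap κ h) = C.id (disc a) := by
  rcases eq_or_lt_of_le h with rfl | h'
  · simp [up, discMap_id, C.ι_id, kap_self, C.id_comp]
  · simp only [up, h'.ne, ↓reduceDIte]
    rw [(bd_kap κ h).2 h' le_rfl false, kap_self]

/-- A face of dimension `< N` of a disc is fixed by collapse and inclusion. -/
theorem face_fixed (κ : IdLift C) {N d a b : ℕ} (hab : a ≤ b) (hN : N ≤ a ∨ b ≤ a) (hd : d < N)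
    (g : GHom d b) :
    C.comp (C.comp (C.ι (discMap g)) (kap κ hab)) (C.ι (discMap (up hab))) = C.ι (discMap g) := by
  cases g with
  | id =>
    obtain rfl : a = d := by omega
    simp [up, discMap_id, C.ι_id, kap_self, C.id_comp]
  | bd hg β =>
    have hda : d < a := by omega
    rw [(bd_kap κ hab).1 hg hda β, ← C.ι_comp, discMap_discMap, bd_comp_up]

/-! ## Truncation -/

/-- The truncation data: an object of dimension `≤ N` through which every cell of dimension
`< N` factors. -/
theorem trunc_exists (κ : IdLift C) (N : ℕ) : ∀ (rest : List (ℕ × ℕ)) (i : ℕ)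
    (v : ValidTail i rest),
    ∃ (S' : GlobSum) (p : C.Hom ⟨i, rest, v⟩ S') (s : C.Hom S' ⟨i, rest, v⟩),
      (∀ l, S'.i l ≤ N) ∧
      (∀ d, d < N → ∀ c : disc d ⟶ ⟨i, rest, v⟩, C.comp (C.comp (C.ι c) p) s = C.ι c) ∧
      ∃ h : S'.head ≤ i, (N ≤ S'.head ∨ i ≤ S'.head) ∧
        C.comp (C.ι (hd ⟨i, rest, v⟩)) p = C.comp (kap κ h) (C.ι (hd S')) ∧
        ∀ d (hd' : d < S'.head) (_ : d < N) (β : Bool),
          C.comp (C.ι (discMap (.bd hd' β) ≫ hd S')) s =
            C.ι (discMap (.bd (hd'.trans_le h) β) ≫ hd ⟨i, rest, v⟩) := by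
  intro rest
  induction rest with
  | nil =>
    intro i v
    have e : ∀ n : ℕ, hd (disc n) = 𝟙 (disc n) := fun n => discMap_id n
    refine ⟨disc (min i N), kap κ (min_le_left i N), C.ι (discMap (up (min_le_left i N))),
      fun l => ?_, fun d hd c => ?_, min_le_left i N, ?_, ?_, fun d hd' _ β => ?_⟩
    · revert l
      refine Fin.cases (min_le_right i N) (fun l => l.elim0)
    · change disc d ⟶ disc i at c
      rw [← ofCell_cellOf c]
      induction cellOf c using disc_cell_ind with
      | h g => exact face_fixed κ (min_le_left i N) (by omega) hd g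
    · rcases le_total i N with h | h
      · exact .inr (le_min le_rfl h)
      · exact .inl (le_min h le_rfl)
    · change C.comp (C.ι (hd (disc i))) _ = C.comp _ (C.ι (hd (disc _)))
      rw [e, e, C.ι_id, C.ι_id, C.id_comp, C.comp_id]
    · change C.comp (C.ι (_ ≫ hd (disc _))) _ = C.ι (_ ≫ hd (disc i))
      rw [e, e, Category.comp_id, Category.comp_id, ← C.ι_comp, discMap_discMap, bd_comp_up]
  | cons q rest ih =>
    intro i v
    obtain ⟨j, i'⟩ := q
    obtain ⟨h₁, h₂, v'⟩ := v
    obtain ⟨T, p, s, hdim, hfix, hle, hN, hp, hs⟩ := ih i' v'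
    let B : GlobSum := ⟨i', rest, v'⟩
    have hi' : T.head ≤ i' := hle
    by_cases hj : j < N
    · have hjm : j < min i N := lt_min h₁ hj
      have hjT : j < T.head := by omega
      let T' := GlobSum.cons (min i N) j T hjm hjT
      have e₁ : C.comp (C.ι (discMap (.bd h₁ true)))
          (C.comp (kap κ (min_le_left i N)) (C.ι (hd T'))) =
          C.comp (C.ι (discMap (.bd h₂ false) ≫ hd B))
            (C.comp p (C.ι (tl (min i N) j T hjm hjT))) := by
        rw [← C.assoc, (bd_kap κ _).1 h₁ hjm, ← C.ι_comp, glue_hd, C.ι_comp (discMap _) (hd B),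
          C.assoc, ← C.assoc (C.ι (hd B)), hp, ← C.assoc, ← C.assoc, (bd_kap κ hle).1 h₂ hjT,
          ← C.ι_comp, ← C.ι_comp, Category.assoc]
      obtain ⟨P, hP₀, hP₁⟩ := exists_cons_desc (A := B) _ _ e₁
      have e₂ : C.comp (C.ι (discMap (.bd hjm true)))
          (C.ι (discMap (up (min_le_left i N)) ≫ hd (GlobSum.cons i j B h₁ h₂))) =
          C.comp (C.ι (discMap (.bd hjT false) ≫ hd T))
            (C.comp s (C.ι (tl i j B h₁ h₂))) := by
        rw [← C.ι_comp, ← Category.assoc, discMap_discMap, bd_comp_up, ← C.assoc, hs j hjT hj,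
          glue_hd, ← C.ι_comp, Category.assoc]
      obtain ⟨S, hS₀, hS₁⟩ := exists_cons_desc (A := T) _ _ e₂
      refine ⟨T', P, S, ?_, fun d hd c => ?_, min_le_left i N, ?_, hP₀, fun d hd' _ β => ?_⟩
      · exact Fin.cases (min_le_right i N)
          (Fin.cases (hdim 0) fun k => hdim k.succ)
      · revert c
        refine cons_cases (A := B) (h₁ := h₁) (h₂ := h₂) (fun g => ?_) (fun c => ?_)
        ·
          rw [C.ι_comp, C.assoc (C.ι (discMap g)), hP₀, ← C.assoc, C.assoc, hS₀, C.ι_comp,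
            ← C.assoc, face_fixed κ (min_le_left i N) (by omega) hd g]
        ·
          rw [C.ι_comp, C.assoc (C.ι c), hP₁, ← C.assoc, C.assoc, hS₁, ← C.assoc, hfix d hd c]
      · rcases le_total i N with h | h
        · exact .inr (le_min le_rfl h)
        · exact .inl (le_min h le_rfl)
      · change C.comp (C.ι (_ ≫ hd T')) S = _
        rw [C.ι_comp, C.assoc, hS₀, ← C.ι_comp, ← Category.assoc, discMap_discMap, bd_comp_up]
    · have hTN : T.head ≤ N := hdim 0
      have hNT : N ≤ T.head := by omega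
      have hTi : T.head ≤ i := by omega
      have e₁ : C.comp (C.ι (discMap (.bd h₁ true))) (C.comp (kap κ hTi) (C.ι (hd T))) =
          C.comp (C.ι (discMap (.bd h₂ false) ≫ hd B)) p := by
        rw [C.ι_comp (discMap _) (hd B), C.assoc, hp, ← C.assoc, ← C.assoc,
          (bd_kap κ hTi).2 h₁ (by omega), (bd_kap κ hle).2 h₂ (by omega)]
      obtain ⟨P, hP₀, hP₁⟩ := exists_cons_desc (A := B) _ _ e₁
      have low : ∀ (d : ℕ) (hd' : d < T.head) (β : Bool),
          C.comp (C.ι (discMap (.bd hd' β) ≫ hd T)) (C.comp s (C.ι (tl i j B h₁ h₂))) =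
            C.ι (discMap (.bd (hd'.trans_le hTi) β) ≫ hd (GlobSum.cons i j B h₁ h₂)) := by
        intro d hd' β
        have hdj : d < j := by omega
        rw [← C.assoc, hs d hd' (by omega), ← C.ι_comp]
        have e₃ : discMap (.bd hdj β) ≫ discMap (.bd h₁ true) ≫ hd (GlobSum.cons i j B h₁ h₂) =
            discMap (.bd hdj β) ≫ discMap (.bd h₂ false) ≫ hd B ≫ tl i j B h₁ h₂ := by
          rw [glue_hd]
        rw [← Category.assoc, discMap_discMap, ← Category.assoc (discMap _) (discMap _),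
          discMap_discMap] at e₃
        rw [Category.assoc]
        exact congrArg C.ι e₃.symm
      refine ⟨T, P, C.comp s (C.ι (tl i j B h₁ h₂)), hdim, fun d hd c => ?_, hTi, .inl hNT, hP₀,
        fun d hd' _ β => low d hd' β⟩
      revert c
      refine cons_cases (A := B) (h₁ := h₁) (h₂ := h₂) (fun g => ?_) (fun c => ?_)
      ·
        rw [C.ι_comp, C.assoc (C.ι (discMap g)), hP₀]
        cases g with
        | id => omega
        | bd hg β =>
          rw [← C.assoc (C.ι (discMap _)), (bd_kap κ hTi).1 hg (by omega), ← C.ι_comp,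
            low d (by omega) β, C.ι_comp]
      ·
        rw [C.ι_comp, C.assoc (C.ι c), hP₁, ← C.assoc, hfix d hd c]

/-- If every admissible pair has a lift, so has every parallel pair. -/
theorem lift_of_admissible (T : Tower C)
    (hadm : ∀ q : Admissible C, Nonempty (Lift C q.f q.g)) :
    ∀ (n : ℕ) (S : GlobSum) (f g : C.Hom (disc n) S), Parallel C f g → Nonempty (Lift C f g) := by
  intro n S f g hfg
  have hdisc : ∀ m, (disc m).dim ≤ m + 1 := fun m =>
    Finset.sup_le fun l _ => Fin.cases (motive := fun l => (disc m).i l ≤ m + 1) m.le_succ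
      (fun l => l.elim0) l
  let κ : IdLift C := fun m => (hadm ⟨m, disc m, C.id _, C.id _,
    (by cases m <;> simp [Parallel]), hdisc m⟩).some
  have key : ∀ {d : ℕ} {B : GlobSum} (y : C.Hom (disc d) B), Gen T y → ∀ N, d < N →
      ∀ (B' : GlobSum) (p : C.Hom B B') (s : C.Hom B' B),
        (∀ d, d < N → ∀ c : disc d ⟶ B, C.comp (C.comp (C.ι c) p) s = C.ι c) →
        C.comp (C.comp y p) s = y := by
    intro d B y hy
    induction hy with
    | cell c => exact fun N hN _ p s h => h _ hN c
    | lift k q x hx ih =>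
      intro N hN B' p s h
      rw [C.assoc, C.assoc]
      refine congrArg _ (ext_incl fun l => ?_)
      have hl : q.1.S.i l < N :=
        lt_of_le_of_lt ((Finset.le_sup (Finset.mem_univ l)).trans q.1.dim_le) hN
      rw [← C.assoc, ← C.assoc]
      exact ih _ (incl _ l) N hl B' p s h
  obtain ⟨S', p, s, hdim, hfix, -⟩ := trunc_exists κ (n + 1) S.rest S.head S.valid
  have hpar : Parallel C (C.comp f p) (C.comp g p) := by
    cases n with
    | zero => trivial
    | succ m =>
      exact ⟨by rw [← C.assoc, hfg.1, C.assoc], by rw [← C.assoc, hfg.2, C.assoc]⟩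
  obtain ⟨h⟩ := hadm ⟨n, S', _, _, hpar, Finset.sup_le fun l _ => hdim l⟩
  refine ⟨⟨C.comp h.1 s, ?_, ?_⟩⟩
  · rw [← C.assoc, h.2.1]
    exact key f (gen_all T f) (n + 1) n.lt_succ_self S' p s hfix
  · rw [← C.assoc, h.2.2]
    exact key g (gen_all T g) (n + 1) n.lt_succ_self S' p s hfix

end Vale.Agent.P259.Exists
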