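import Vale.Agent.P259.Exists.Colimit
import Vale.Agent.P259.Exists.Truncate

/-!
# P259: coherators exist, so the statement is not vacuous
-/

noncomputable section

open CategoryTheory

namespace Vale.Agent.P259.Exists

/-- The free tower: adjoin lifts of all admissible pairs at every step. -/
def free : ℕ → GlobExt
  | 0 => theta
  | k + 1 => adjoin (free k) Set.univ

/-- The steps of the free tower. -/
def freeNext (k : ℕ) : GlobExt.Map (free k) (free (k + 1)) := adjoinMap (free k) Set.univ

/-- The colimit of the free tower. -/
abbrev freeColim : GlobExt := colim free freeNext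

/-- The presentation of the colimit. -/
def freeTower : Tower freeColim where
  stage := free
  stage_zero _ _ := ⟨fun _ _ h => h, fun f => ⟨f, rfl⟩⟩
  next := freeNext
  pairs _ := Set.univ
  lift k := adjoinLift (free k) Set.univ
  universal k := adjoins (C := free k) (P := Set.univ)
  toColim := colimMap free freeNext
  toColim_next k A B f :=
    (congrArg (inj free freeNext) (by rw [trn_succ free freeNext le_rfl, trn_self])).trans
      (inj_trn free freeNext k.le_succ f)
  exists_stage A B f := by
    obtain ⟨k, hk⟩ := inj_surj free freeNext f
    obtain ⟨g, hg⟩ := hk k le_rfl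
    exact ⟨k, g, hg⟩

theorem freeTower_isColimit : freeTower.IsColimit := by
  intro k A B f g h
  obtain ⟨m, hm, e⟩ := inj_eq free freeNext h
  obtain ⟨d, rfl⟩ := Nat.exists_eq_add_of_le hm
  refine ⟨d, ?_⟩
  have push : ∀ (d : ℕ) (x : (free k).Hom A B),
      freeTower.push k d x = trn free freeNext (Nat.le_add_right k d) x := by
    intro d x
    induction d with
    | zero => exact (trn_self _ _ _ _).symm
    | succ d ih =>
      exact (congrArg (fun y => (freeNext (k + d)).map y) ih).trans
        (trn_succ free freeNext (Nat.le_add_right k d) _ x).symm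
  exact (push d f).trans (e.trans (push d g).symm)

theorem free_admissible (q : Admissible freeColim) : Nonempty (Lift freeColim q.f q.g) := by
  obtain ⟨n, S, f, g, hpar, hdim⟩ := q
  obtain ⟨k, hk⟩ := inj_surj free freeNext f
  obtain ⟨l, hl⟩ := inj_surj free freeNext g
  obtain ⟨f', rfl⟩ := hk (max k l) (le_max_left _ _)
  obtain ⟨g', rfl⟩ := hl (max k l) (le_max_right _ _)
  generalize max k l = K at f' g' hpar
  obtain ⟨m, hm, hp⟩ : ∃ m, ∃ h : K ≤ m,
      Parallel (free m) (trn free freeNext h f') (trn free freeNext h g') := by
    cases n with
    | zero => exact ⟨K, le_rfl, trivial⟩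
    | succ n =>
      have e : ∀ c : disc n ⟶ disc (n + 1),
          freeColim.comp (freeColim.ι c) (inj free freeNext f') =
            inj free freeNext ((free K).comp ((free K).ι c) f') ∧
          freeColim.comp (freeColim.ι c) (inj free freeNext g') =
            inj free freeNext ((free K).comp ((free K).ι c) g') := fun c => by
        have e := ((colimMap free freeNext K).map_ι c).symm
        exact ⟨(congrArg (fun x => ccomp free freeNext x _) e).trans (inj_comp free freeNext _ _),
          (congrArg (fun x => ccomp free freeNext x _) e).trans (inj_comp free freeNext _ _)⟩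
      obtain ⟨h₁, h₂⟩ := hpar
      rw [(e _).1, (e _).2] at h₁ h₂
      obtain ⟨a, ha, ea⟩ := inj_eq free freeNext h₁
      obtain ⟨b, hb, eb⟩ := inj_eq free freeNext h₂
      refine ⟨max a b, ha.trans (le_max_left _ _), ?_, ?_⟩
      · have := congrArg (trn free freeNext (le_max_left a b)) ea
        simp only [(trn_map free freeNext _).2.1, (trn_map free freeNext _).2.2, trn_trn] at this
        exact this
      · have := congrArg (trn free freeNext (le_max_right a b)) eb
        simp only [(trn_map free freeNext _).2.1, (trn_map free freeNext _).2.2, trn_trn] at this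
        exact this
  let p : (Set.univ : Set (Admissible (free m))) := ⟨⟨n, S, _, _, hp, hdim⟩, trivial⟩
  obtain ⟨h, h₁, h₂⟩ := adjoinLift (free m) Set.univ p
  let q := colimMap free freeNext (m + 1)
  refine ⟨⟨q.map h, ?_, ?_⟩⟩
  · exact ((congrArg (fun c => freeColim.comp c (q.map h)) (q.map_ι _).symm).trans
      (q.map_comp _ _).symm).trans ((congrArg q.map h₁).trans
        ((freeTower.toColim_next m _ _ _).trans (inj_trn free freeNext hm f')))
  · exact ((congrArg (fun c => freeColim.comp c (q.map h)) (q.map_ι _).symm).trans
      (q.map_comp _ _).symm).trans ((congrArg q.map h₂).trans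
        ((freeTower.toColim_next m _ _ _).trans (inj_trn free freeNext hm g')))

/-- A coherator exists. -/
theorem exists_coherator : ∃ C : GlobExt, IsCoherator C :=
  ⟨freeColim, ⟨freeTower, freeTower_isColimit⟩, lift_of_admissible freeTower free_admissible⟩


end Vale.Agent.P259.Exists
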