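import Vale.Agent.P259.Defs

/-!
# P259: `Θ₀` is a globular extension, and elementary calculus in globular extensions
-/

noncomputable section

open CategoryTheory Opposite

namespace Vale.Agent.P259.Exists

/-- The class of a cell of the `l`-th term. -/
def cls (A : GlobSum) {n : ℕ} (l : Fin (A.len + 1)) (g : GHom n (A.i l)) : A.Cell n :=
  Quot.mk _ ⟨l, g⟩

/-- A cell of a disc. -/
def dcls {m n : ℕ} (g : GHom m n) : (disc n).Cell m := cls (disc n) (0 : Fin 1) g

theorem cell_ind (A : GlobSum) {n : ℕ} {P : A.Cell n → Prop}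
    (h : ∀ l g, P (cls A l g)) (x : A.Cell n) : P x :=
  Quot.ind (fun p => h p.1 p.2) x

theorem disc_cell_ind {m n : ℕ} {P : (disc n).Cell m → Prop}
    (h : ∀ g, P (dcls g)) (x : (disc n).Cell m) : P x :=
  cell_ind _ (fun l => Fin.cases (motive := fun l => ∀ g, P (cls (disc n) l g))
    h (fun l => l.elim0) l) x

theorem cls_eq_pull (A : GlobSum) {n : ℕ} (l : Fin (A.len + 1)) (g : GHom n (A.i l)) :
    cls A l g = GlobSum.Cell.pull g (cls A l (GHom.id _)) :=
  congrArg (cls A l) (GHom.comp_id' g).symm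

theorem dcls_eq_pull {m n : ℕ} (g : GHom m n) :
    dcls g = GlobSum.Cell.pull g (dcls (GHom.id n)) :=
  cls_eq_pull (disc n) (0 : Fin 1) g

/-- The cell given by a map out of a disc. -/
def cellOf {A : GlobSum} {n : ℕ} (f : disc n ⟶ A) : A.Cell n :=
  f.app (op ⟨n⟩) (dcls (GHom.id n))

theorem app_pull {A B : GlobSum} (f : A ⟶ B) {a b : ℕ} (g : GHom a b) (x : A.Cell b) :
    f.app (op ⟨a⟩) (GlobSum.Cell.pull g x) = GlobSum.Cell.pull g (f.app (op ⟨b⟩) x) :=
  ConcreteCategory.congr_hom (f.naturality (Quiver.Hom.op (show Globe.mk a ⟶ Globe.mk b from g))) x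

theorem hom_ext_cell {A B : GlobSum} {f f' : A ⟶ B}
    (h : ∀ n (x : A.Cell n), f.app (op ⟨n⟩) x = f'.app (op ⟨n⟩) x) : f = f' := by
  apply NatTrans.ext
  funext a
  obtain ⟨⟨n⟩⟩ := a
  ext x
  exact h n x

theorem cellOf_ofCell {A : GlobSum} {n : ℕ} (c : A.Cell n) : cellOf (ofCell c) = c :=
  c.pull_id

theorem app_dcls {A : GlobSum} {m n : ℕ} (f : disc n ⟶ A) (g : GHom m n) :
    f.app (op ⟨m⟩) (dcls g) = GlobSum.Cell.pull g (cellOf f) :=
  (congrArg (f.app (op ⟨m⟩)) (dcls_eq_pull g)).trans (app_pull f g _)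

theorem disc_ext {A : GlobSum} {n : ℕ} {f f' : disc n ⟶ A} (h : cellOf f = cellOf f') :
    f = f' :=
  hom_ext_cell fun _ x => by
    induction x using disc_cell_ind with
    | h g => exact (app_dcls f g).trans ((congrArg _ h).trans (app_dcls f' g).symm)

theorem ofCell_cellOf {A : GlobSum} {n : ℕ} (f : disc n ⟶ A) : ofCell (cellOf f) = f :=
  disc_ext (cellOf_ofCell _)

theorem cellOf_discMap_comp {A : GlobSum} {a b : ℕ} (g : GHom a b) (f : disc b ⟶ A) :
    cellOf (discMap g ≫ f) = GlobSum.Cell.pull g (cellOf f) :=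
  (congrArg (f.app (op ⟨a⟩)) (GlobSum.Cell.pull_id _)).trans (app_dcls f g)

theorem discMap_ofCell {A : GlobSum} {a b : ℕ} (g : GHom a b) (c : A.Cell b) :
    discMap g ≫ ofCell c = ofCell (c.pull g) := by
  apply disc_ext
  rw [cellOf_discMap_comp, cellOf_ofCell, cellOf_ofCell]

theorem discMap_discMap {a b c : ℕ} (g : GHom a b) (h : GHom b c) :
    discMap g ≫ discMap h = discMap (g.comp h) :=
  discMap_ofCell g _

theorem discMap_id (a : ℕ) : discMap (GHom.id a) = 𝟙 (disc a) :=
  disc_ext (cellOf_ofCell _)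

theorem glue_rel (A : GlobSum) (l : Fin A.len) :
    glueTgt A l ≫ incl A l.castSucc = glueSrc A l ≫ incl A l.succ := by
  apply disc_ext
  exact Quot.sound ⟨l, GHom.id _, rfl, rfl⟩

/-- The universal property of a globular sum among presheaves on the globe category. -/
theorem theta_preserves (B : GlobSum) :
    SendsSumsToLimits (fun A => (A ⟶ B)) (fun f h => f ≫ h) := by
  intro A x hx
  let val : ∀ n, A.PreCell n → B.Cell n := fun n p =>
    GlobSum.Cell.pull p.2 (cellOf (x p.1))
  have hval : ∀ n (p q : A.PreCell n), A.Glue n p q → val n p = val n q := by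
    rintro n p q ⟨l, g, rfl, rfl⟩
    have h : cellOf (discMap (.bd (A.lt_left l) true) ≫ x l.castSucc) =
        cellOf (discMap (.bd (A.lt_right l) false) ≫ x l.succ) := congrArg cellOf (hx l)
    rw [cellOf_discMap_comp, cellOf_discMap_comp] at h
    change GlobSum.Cell.pull _ _ = GlobSum.Cell.pull _ _
    rw [GlobSum.Cell.pull_comp, GlobSum.Cell.pull_comp, h]
  let a : A ⟶ B :=
    { app := fun b => TypeCat.ofHom (Quot.lift (val b.unop.dim) (hval _))
      naturality := fun b b' f => by
        ext z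
        induction z using Quot.ind with
        | _ p => exact GlobSum.Cell.pull_comp f.unop p.2 _ }
  refine ⟨a, fun l => disc_ext ?_, fun a' ha' => hom_ext_cell fun n z => ?_⟩
  · change GlobSum.Cell.pull _ (cellOf (x l)) = cellOf (x l)
    exact GlobSum.Cell.pull_id _
  · induction z using cell_ind with | h l g => ?_
    have h : cellOf (incl A l ≫ a') = cellOf (x l) := congrArg cellOf (ha' l)
    have h' : a'.app (op ⟨A.i l⟩) (cls A l (GHom.id _)) = cellOf (x l) := by
      refine Eq.trans ?_ h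
      exact congrArg (a'.app (op ⟨A.i l⟩)) (GlobSum.Cell.pull_id _).symm
    refine ((congrArg (a'.app (op ⟨n⟩)) (cls_eq_pull A l g)).trans (app_pull a' g _)).trans ?_
    exact congrArg (GlobSum.Cell.pull g) h'

/-- `Θ₀` as a globular extension of itself. -/
def theta : GlobExt where
  Hom A B := A ⟶ B
  id A := 𝟙 A
  comp f g := f ≫ g
  id_comp := Category.id_comp
  comp_id := Category.comp_id
  assoc := Category.assoc
  ι f := f
  ι_id _ := rfl
  ι_comp _ _ := rfl
  preserves := theta_preserves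

variable {C : GlobExt}

/-- Maps out of a globular sum are determined by their components. -/
theorem ext_incl {A B : GlobSum} {f f' : C.Hom A B}
    (h : ∀ l, C.comp (C.ι (incl A l)) f = C.comp (C.ι (incl A l)) f') : f = f' := by
  obtain ⟨a, -, ha⟩ := C.preserves B A (fun l => C.comp (C.ι (incl A l)) f') fun l => by
    change C.comp _ (C.comp _ _) = C.comp _ (C.comp _ _)
    rw [← C.assoc, ← C.ι_comp, ← C.assoc, ← C.ι_comp, glue_rel]
  exact (ha f h).trans (ha f' fun _ => rfl).symm

/-- Copairing. -/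
def desc {A B : GlobSum} (x : ∀ l, C.Hom (disc (A.i l)) B)
    (hx : ∀ l : Fin A.len, C.comp (C.ι (glueTgt A l)) (x l.castSucc) =
      C.comp (C.ι (glueSrc A l)) (x l.succ)) : C.Hom A B :=
  (C.preserves B A x hx).choose

theorem incl_desc {A B : GlobSum} (x : ∀ l, C.Hom (disc (A.i l)) B) (hx) (l : Fin (A.len + 1)) :
    C.comp (C.ι (incl A l)) (desc x hx) = x l :=
  (C.preserves B A x hx).choose_spec.1 l

end Vale.Agent.P259.Exists
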